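import Vale.Agent.P284.H661.D.Spec
import Vale.Agent.P284.H608.D.Dens
import Vale.Agent.P284.H988.D.Coef
import Vale.Agent.P284.H619.D.Fub

/-!
# P284, project D, module E3 (helper15): masses
-/

open scoped Manifold ContDiff Topology ComplexOrder ComplexConjugate Matrix
open Filter Set MeasureTheory

noncomputable section

namespace Vale.Agent.P284.H15.D

open Vale.Agent.P272.K Vale.Agent.P284.H248 Vale.Agent.P284.H206.K Vale.Agent.P284.H224.D
  Vale.Agent.P284.H661.D

variable {n R : ℕ} {X : Type} [TopologicalSpace X] [ChartedSpace (Cm n) X]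
  {W : Chart n X → Cm n → Matrix (Fin n) (Fin n) ℂ}

theorem cfd_eq {m : ℕ} (s : ℕ) (A B : Matrix (Fin m) (Fin m) ℂ) :
    cfd s A B = (H988.D.coD s A B).re := by
  unfold cfd H988.D.coD
  rw [Complex.re_sum]
  refine Finset.sum_congr rfl fun l _ => ?_
  rw [Complex.re_ofReal_mul]

theorem cfd_nonneg {m : ℕ} (s : ℕ) {A B : Matrix (Fin m) (Fin m) ℂ} (hA : A.PosSemidef)
    (hB : B.PosSemidef) : 0 ≤ cfd s A B := by
  rw [cfd_eq]
  exact H988.D.coD_nonneg_re s hA hB

theorem hatM_posSemidef {A : Matrix (Fin n) (Fin n) ℂ} (hA : A.PosSemidef) :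
    (hatM A).PosSemidef := by
  refine Matrix.PosSemidef.of_dotProduct_mulVec_nonneg ?_ fun v => ?_
  · ext i k
    refine Fin.lastCases ?_ (fun i' => ?_) i <;> refine Fin.lastCases ?_ (fun k' => ?_) k
    · simp [Matrix.conjTranspose_apply]
    · simp [Matrix.conjTranspose_apply]
    · simp [Matrix.conjTranspose_apply]
    · rw [Matrix.conjTranspose_apply, hatM_cc, hatM_cc]
      exact hA.isHermitian.apply _ _
  · have h1 := hA.dotProduct_mulVec_nonneg (fun i => v i.castSucc)
    have h2 : star v ⬝ᵥ (hatM A) *ᵥ v =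
        star (fun i : Fin n => v i.castSucc) ⬝ᵥ A *ᵥ (fun i => v i.castSucc) := by
      simp only [dotProduct, Matrix.mulVec, Fin.sum_univ_castSucc, hatM_cc, hatM_cl, hatM_lc,
        hatM_ll, Pi.star_apply, zero_mul, add_zero, Finset.sum_const_zero, mul_zero]
    rw [h2]
    exact h1

variable [T2Space X] [CompactSpace X] [IsManifold 𝓘(ℂ, Cm n) ω X]

/-- the mass of `(C W + i∂∂̄g)^(n-s) ∧ W^s` does not depend on `g` -/
theorem mass_eq (hW : IsKahler W) (C : ℝ) {g : X → ℝ} (hg : SmoothFn (n := n) g) (s : ℕ) :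
    INT.intX (fun e y => cfd s ((C : ℂ) • W e y + cHess (fun y => g (e.symm y)) y) (W e y)) =
      INT.intX (fun e y => cfd s ((C : ℂ) • W e y) (W e y)) := by
  have hb : ∀ l : ℝ, INT.IsClosedForm fun (e : Chart n X) y => ((C + l : ℝ) : ℂ) • W e y :=
    fun l => (INT.IsKahler.isClosedForm hW).smul _
  have hbg : ∀ l : ℝ, INT.IsClosedForm fun (e : Chart n X) y => ((C + l : ℝ) : ℂ) • W e y +
      cHess (fun y => g (e.symm y)) y := fun l => (hb l).add (INT.isClosedForm_cHess hg)
  have e1 : (fun (e : Chart n X) y => cfd s ((C : ℂ) • W e y + cHess (fun y => g (e.symm y)) y)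
      (W e y)) = fun e y => ∑ l : Fin (n + 1), Vale.Agent.P284.H395.cf n s l *
        (((C + ((l : ℕ) : ℝ) : ℝ) : ℂ) • W e y + cHess (fun y => g (e.symm y)) y).det.re := by
    funext e y
    unfold cfd
    refine Finset.sum_congr rfl fun l _ => ?_
    congr 3
    rw [Complex.ofReal_add, add_smul]
    abel
  have e2 : (fun (e : Chart n X) y => cfd s ((C : ℂ) • W e y) (W e y)) =
      fun e y => ∑ l : Fin (n + 1), Vale.Agent.P284.H395.cf n s l *
        (((C + ((l : ℕ) : ℝ) : ℝ) : ℂ) • W e y).det.re := by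
    funext e y
    unfold cfd
    refine Finset.sum_congr rfl fun l _ => ?_
    congr 3
    rw [Complex.ofReal_add, add_smul]
  rw [e1, e2, INT.intX_sum _ fun l _ => (hbg _).isDensity.const_mul _,
    INT.intX_sum _ fun l _ => (hb _).isDensity.const_mul _]
  refine Finset.sum_congr rfl fun l _ => ?_
  rw [INT.intX_const_mul, INT.intX_const_mul, INT.intX_det_add_cHess (hb _) hg]

theorem e3a : E3aStmt := by
  intro n X _ _ _ _ _ W hW C g hg d₁
  exact mass_eq hW C hg d₁

variable {psi : X → ℝ} {lam : X → Cm R → ℝ}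

/-- the mass of `M_t` -/
theorem mass_MT (hW : IsKahler W) (C : ℝ) (hp : SmoothFn (n := n) psi)
    (hl : JSm (n := n) lam) (s : ℕ) (t : ℝ) (z : Cm R) :
    INT.intX (fun e y => cfd s (MT C W psi lam t e y z) (W e y)) =
      INT.intX (fun e y => cfd s ((C : ℂ) • W e y) (W e y)) := by
  have hg : SmoothFn (n := n) fun x => psi x + t * (lam x z - psi x) := fun e x hx =>
    (hp e x hx).add (contDiffAt_const.mul ((hl.left hx z).sub (hp e x hx)))
  exact mass_eq hW C hg s

omit [T2Space X] [CompactSpace X] [IsManifold 𝓘(ℂ, Cm n) ω X] in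
/-- the integrand of `uz` is jointly continuous -/
theorem pcont_u (hW : IsKahler W) (C : ℝ) (hp : SmoothFn (n := n) psi)
    (hl : JSm (n := n) lam) (s : ℕ) :
    H619.D.PCont (fun (q : ℝ × Cm R) (e : Chart n X) y =>
      (lam (e.symm y) q.2 - psi (e.symm y)) * cfd s (MT C W psi lam q.1 e y q.2) (W e y)) := by
  intro e x hx t
  have h1 := (H608.D.u_joint hW.toIsHermitian C hp hl s hx t.1 t.2).continuousAt
  exact ContinuousAt.comp (f := fun q : (ℝ × Cm R) × Cm n => (q.2, q.1)) (x := (t, e x)) h1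
    (continuous_snd.prodMk continuous_fst).continuousAt

omit [T2Space X] [CompactSpace X] [IsManifold 𝓘(ℂ, Cm n) ω X] in
theorem pcont_K (hW : IsKahler W) (C : ℝ) (hl : JSm (n := n) lam) (s : ℕ) (j : Fin R) :
    H619.D.PCont (fun (z : Cm R) (e : Chart n X) y =>
      cfd s (KJ C W lam e y z j) (hatM (W e y))) := by
  intro e x hx z
  have h1 := (H608.D.cfdK_joint hW.toIsHermitian C hl s hx z j).continuousAt
  exact ContinuousAt.comp (f := fun q : Cm R × Cm n => (q.2, q.1)) (x := (z, e x)) h1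
    (continuous_snd.prodMk continuous_fst).continuousAt

theorem Hz_continuous (hW : IsKahler W) (C : ℝ) (hl : JSm (n := n) lam) (s : ℕ) :
    Continuous (Hz s C W lam) := by
  unfold Hz
  exact continuous_finsetSum _ fun j _ => H619.D.continuous_intX (pcont_K hW C hl s j)

theorem intX_u_continuous (hW : IsKahler W) (C : ℝ) (hp : SmoothFn (n := n) psi)
    (hl : JSm (n := n) lam) (s : ℕ) : Continuous (fun q : ℝ × Cm R =>
      INT.intX (fun (e : Chart n X) y => (lam (e.symm y) q.2 - psi (e.symm y)) *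
        cfd s (MT C W psi lam q.1 e y q.2) (W e y))) :=
  H619.D.continuous_intX (pcont_u hW C hp hl s)

theorem uz_continuous (hW : IsKahler W) (C : ℝ) (hp : SmoothFn (n := n) psi)
    (hl : JSm (n := n) lam) (s : ℕ) : Continuous (uz s C W psi lam) := by
  unfold uz
  exact intervalIntegral.continuous_parametric_intervalIntegral_of_continuous'
    (f := fun z t => INT.intX (fun (e : Chart n X) y => (lam (e.symm y) z - psi (e.symm y)) *
        cfd s (MT C W psi lam t e y z) (W e y)))
    ((intX_u_continuous hW C hp hl s).comp continuous_swap) 0 1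

theorem uz_le (hW : IsKahler W) (C : ℝ) (hp : SmoothFn (n := n) psi)
    (hl : JSm (n := n) lam) (s : ℕ)
    (hM : ∀ (e : Chart n X) x, At e x → ∀ z : Cm R, ∀ t ∈ Icc (0 : ℝ) 1,
      (MT C W psi lam t e (e x) z).PosSemidef) (z : Cm R) (B : ℝ)
    (hB : ∀ x, lam x z - psi x ≤ B) :
    uz s C W psi lam z ≤ B * INT.intX (fun e y => cfd s ((C : ℂ) • W e y) (W e y)) := by
  have hc : Continuous (fun t : ℝ =>
      INT.intX (fun (e : Chart n X) y => (lam (e.symm y) z - psi (e.symm y)) *
        cfd s (MT C W psi lam t e y z) (W e y))) :=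
    (intX_u_continuous hW C hp hl s).comp (continuous_id.prodMk continuous_const)
  have h1 : ∀ t ∈ Icc (0 : ℝ) 1,
      INT.intX (fun (e : Chart n X) y => (lam (e.symm y) z - psi (e.symm y)) *
        cfd s (MT C W psi lam t e y z) (W e y)) ≤
      B * INT.intX (fun e y => cfd s ((C : ℂ) • W e y) (W e y)) := by
    intro t ht
    rw [← mass_MT hW C hp hl s t z, ← INT.intX_const_mul]
    refine INT.intX_mono (H608.D.isDensity_u hW.toIsHermitian C hp hl s t z)
      ((H608.D.isDensity_cfdM hW.toIsHermitian C hp hl s t z).const_mul B) fun e x hx => ?_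
    rw [hx.left_inv]
    exact mul_le_mul_of_nonneg_right (hB x)
      (cfd_nonneg s (hM e x hx z t ht) (hW.toIsHermitian.posDef e x hx).posSemidef)
  unfold uz
  have h2 := intervalIntegral.integral_mono_on (μ := volume) (a := (0 : ℝ)) (b := 1) zero_le_one
    (hc.intervalIntegrable _ _) (continuous_const.intervalIntegrable (μ := volume)
      (u := fun _ : ℝ => B * INT.intX (fun e y => cfd s ((C : ℂ) • W e y) (W e y))) _ _) h1
  refine h2.trans (le_of_eq ?_)
  simp

theorem Hz_nonneg (hW : IsKahler W) (C : ℝ) (s : ℕ)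
    (hK : ∀ (e : Chart n X) x, At e x → ∀ z : Cm R, ∀ j,
      (KJ C W lam e (e x) z j).PosSemidef) (z : Cm R) : 0 ≤ Hz s C W lam z := by
  unfold Hz
  refine Finset.sum_nonneg fun j _ => INT.intX_nonneg fun e x hx => ?_
  exact cfd_nonneg s (hK e x hx z j)
    (hatM_posSemidef (hW.toIsHermitian.posDef e x hx).posSemidef)

theorem e3b : E3bStmt := by
  intro n R X _ _ _ _ _ W hW C psi lam hp hl d₁
  refine ⟨Hz_continuous hW C hl d₁, uz_continuous hW C hp hl d₁, fun hM z B _ hB =>
    uz_le hW C hp hl d₁ hM z B hB, fun hK z => Hz_nonneg hW C d₁ hK z⟩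

end Vale.Agent.P284.H15.D
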